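import Vale.Agent.P241.H32.Cells
import Vale.Agent.P241.H137.Ell

/-!
# P241: restriction and the action of the Weyl group on fixed points

* `SQ.gfc` : the functors `X ↦ X^A` to `H`-spaces preserve finite cell spaces (`G` finite);
* `gfc_res` : restriction of a finite `G`-cell space along `φ : H →* G`;
* `wfix X A` : the `A`-fixed points with the action of `W = N(A) / A`; `gfc_wfix`;
  `wfixHomeo : (wfix X A)^V ≃ X^(ofWeyl A V)`.
-/

open CategoryTheory MonoidalCategory OnePoint Topology Filter

namespace Vale.Agent.P241.H32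

open Vale.Agent.P251 Vale.Agent.P251.St Vale.Agent.P251.G Vale.Agent.P251.G.LC
open Vale.Agent.P241.St Vale.Agent.P241.H486

variable {G H : Type} [Group G] [Group H]

namespace SQ

variable (Q : SQ G H)

/-- the fixed points of a cell -/
def cellHomeo (V : Subgroup G) (n : ℕ) :
    (@dset H _ (MulAction.fixedPoints Q.A (G ⧸ V)) (Q.act (G ⧸ V)) n).carrier ≃ₜ
      (Q.obj (cell G V n)).carrier :=
  letI : TopologicalSpace (G ⧸ V) := ⊥
  haveI : DiscreteTopology (G ⧸ V) := ⟨rfl⟩
  letI := Q.act (G ⧸ V)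
  { toFun := fun x => ⟨(x.1.1, x.2), fun a => Prod.ext (x.1.2 a) rfl⟩
    invFun := fun x => (⟨x.1.1, fun a => congrArg Prod.fst (x.2 a)⟩, x.1.2)
    left_inv := fun x => rfl
    right_inv := fun x => rfl
    continuous_toFun := by
      let _ : TopologicalSpace (MulAction.fixedPoints Q.A (G ⧸ V)) := ⊥
      have _ : DiscreteTopology (MulAction.fixedPoints Q.A (G ⧸ V)) := ⟨rfl⟩
      have h0 : Continuous (fun x : MulAction.fixedPoints Q.A (G ⧸ V) × (Fin n → ℝ) =>
          ((x.1 : G ⧸ V), x.2)) := by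
        refine Continuous.prodMk ?_ continuous_snd
        have h1 : Continuous (fun j : MulAction.fixedPoints Q.A (G ⧸ V) => (j : G ⧸ V)) :=
          continuous_of_discreteTopology
        exact h1.comp continuous_fst
      exact Continuous.subtype_mk h0 _
    continuous_invFun := by
      have hv : Continuous (fun x : (Q.obj (cell G V n)).carrier =>
          (x.1 : (G ⧸ V) × (Fin n → ℝ))) := continuous_subtype_val
      have h1 : Continuous (fun x : (Q.obj (cell G V n)).carrier => (x.1.1 : G ⧸ V)) :=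
        continuous_fst.comp hv
      have h2 : @Continuous (Q.obj (cell G V n)).carrier (MulAction.fixedPoints Q.A (G ⧸ V)) _ ⊥
          (fun x => ⟨x.1.1, fun a => congrArg Prod.fst (x.2 a)⟩) := by
        let t : TopologicalSpace (MulAction.fixedPoints Q.A (G ⧸ V)) := ⊥
        have ht : @DiscreteTopology _ t := ⟨rfl⟩
        refine (@continuous_discrete_rng _ _ _ t ht _).mpr fun i => ?_
        have h3 : (fun x : (Q.obj (cell G V n)).carrier => (⟨x.1.1, fun a =>
            congrArg Prod.fst (x.2 a)⟩ : MulAction.fixedPoints Q.A (G ⧸ V))) ⁻¹' {i} =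
            (fun x : (Q.obj (cell G V n)).carrier => (x.1.1 : G ⧸ V)) ⁻¹' {i.1} := by
          ext x
          exact Subtype.ext_iff
        rw [h3]
        exact (isOpen_discrete _).preimage h1
      have h4 : Continuous (fun x : (Q.obj (cell G V n)).carrier => (x.1.2 : Fin n → ℝ)) :=
        continuous_snd.comp hv
      exact @Continuous.prodMk _ _ _ ⊥ _ _ _ _ h2 h4 }

theorem gfc [Finite G] {X : GSpace G} (hX : GFC G X) : GFC H (Q.obj X) := by
  induction hX with
  | empty => exact gfc_of_isEmpty ⟨fun x => x.1.elim⟩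
  | cell V n =>
    exact gfc_of_homeo (@gfc_finset H _ (MulAction.fixedPoints Q.A (G ⧸ V)) (Q.act _) _ n)
      (Q.cellHomeo V n) fun g x => rfl
  | hequiv _ h ih => exact .hequiv ih (Q.gHEquiv h)
  | @ext A B C i q hi hq hcof hquot _ _ ihA ihC =>
    have hi' : IsGMap (X := A) (Y := B) (app (toHom i)) := hi
    have hq' : IsGMap (X := B) (Y := C) (app (toHom q)) := hq
    exact GFC.ext (A := Q.obj A) (B := Q.obj B) (C := Q.obj C)
      (i := ofHom (X := A.fix Q.A) (Y := B.fix Q.A) (fixHom Q.A (toHom i) hi'))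
      (q := ofHom (X := B.fix Q.A) (Y := C.fix Q.A) (fixHom Q.A (toHom q) hq'))
      (Q.isGMap_fixHom _ hi') (Q.isGMap_fixHom _ hq') (Q.gCofib hi' hcof)
      (isQuot_fix Q.A hi' hq' (injective_of_gcofib hcof) hquot) ihA ihC

/-- the fixed points of `Q.obj X` -/
def fixHomeo (X : GSpace G) (V : Subgroup H) (B : Subgroup G) (hB : ∀ g, g ∈ B ↔
    ∃ h ∈ V, (Q.s h)⁻¹ * g ∈ Q.A) : ((Q.obj X).fix V).carrier ≃ₜ (X.fix B).carrier where
  toFun x := ⟨x.1.1, by
    rintro ⟨g, hg⟩
    obtain ⟨h, hh, hgh⟩ := (hB g).mp hg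
    have h1 : Q.s h • x.1.1 = x.1.1 := congrArg Subtype.val (x.2 ⟨h, hh⟩)
    exact (Q.smul_eq_of_inv_mul_mem hgh x.1.2).trans h1⟩
  invFun x := ⟨⟨x.1, fun a => x.2 ⟨a.1, (hB a.1).mpr ⟨1, V.one_mem,
    Q.A.mul_mem (Q.A.inv_mem Q.one) a.2⟩⟩⟩, by
      rintro ⟨h, hh⟩
      exact Subtype.ext (x.2 ⟨Q.s h, (hB _).mpr ⟨h, hh, by
        rw [inv_mul_cancel]; exact Q.A.one_mem⟩⟩)⟩
  left_inv x := rfl
  right_inv x := rfl
  continuous_toFun := by
    have h1 : Continuous (fun x : ((Q.obj X).fix V).carrier => (x.1 : (Q.obj X).carrier)) :=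
      continuous_subtype_val
    have h2 : Continuous (fun x : (Q.obj X).carrier => (x.1 : X.carrier)) :=
      continuous_subtype_val
    exact (h2.comp h1).subtype_mk _
  continuous_invFun := by
    have h1 : Continuous (fun x : (X.fix B).carrier => (x.1 : X.carrier)) :=
      continuous_subtype_val
    exact (h1.subtype_mk _).subtype_mk _

end SQ

/-! ### Restriction -/

/-- the data of restriction along `φ` -/
def resSQ (φ : H →* G) : SQ G H where
  A := ⊥
  s := φ
  norm h a ha := by
    rw [Subgroup.mem_bot.1 ha]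
    simp
  one := by simp
  mul h k := by simp

/-- `X^1` is `X` -/
def resHomeo (φ : H →* G) (X : GSpace G) : ((resSQ φ).obj X).carrier ≃ₜ (X.res φ).carrier where
  toFun x := x.1
  invFun x := ⟨x, by
    rintro ⟨a, ha⟩
    obtain rfl : a = 1 := ha
    exact @one_smul G X.carrier _ _ x⟩
  left_inv x := rfl
  right_inv x := rfl
  continuous_toFun := by
    have h1 : Continuous (fun x : ((resSQ φ).obj X).carrier => (x.1 : X.carrier)) :=
      continuous_subtype_val
    exact h1
  continuous_invFun := by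
    have h1 : Continuous (fun x : X.carrier => x) := continuous_id
    exact h1.subtype_mk _

/-- The restriction of a finite `G`-cell space along `φ : H →* G` is a finite `H`-cell space. -/
theorem gfc_res [Finite G] (φ : H →* G) {X : GSpace G} (hX : GFC G X) : GFC H (X.res φ) :=
  gfc_of_homeo ((resSQ φ).gfc hX) (resHomeo φ X) fun _ _ => rfl

/-- the fixed points of a restricted space -/
def resFixHomeo (φ : H →* G) (X : GSpace G) (V : Subgroup H) :
    ((X.res φ).fix V).carrier ≃ₜ (X.fix (V.map φ)).carrier where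
  toFun x := ⟨x.1, by
    rintro ⟨_, ⟨v, hv, rfl⟩⟩
    exact x.2 ⟨v, hv⟩⟩
  invFun x := ⟨x.1, fun v => x.2 ⟨φ v.1, Subgroup.mem_map_of_mem φ v.2⟩⟩
  left_inv x := rfl
  right_inv x := rfl
  continuous_toFun := by
    have h1 : Continuous (fun x : ((X.res φ).fix V).carrier => (x.1 : X.carrier)) :=
      continuous_subtype_val
    exact h1.subtype_mk _
  continuous_invFun := by
    have h1 : Continuous (fun x : (X.fix (V.map φ)).carrier => (x.1 : X.carrier)) :=
      continuous_subtype_val
    exact h1.subtype_mk _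

/-! ### The Weyl group -/

open H137

/-- a representative in `N(A)` -/
noncomputable def rep {A : Subgroup G} (w : Weyl A) : NA A := Quotient.out w

theorem mk_rep {A : Subgroup G} (w : Weyl A) : (QuotientGroup.mk (rep w) : Weyl A) = w :=
  Quotient.out_eq' w

theorem mem_of_mk_eq {A : Subgroup G} {g h : NA A}
    (e : (QuotientGroup.mk g : Weyl A) = QuotientGroup.mk h) : (g : G)⁻¹ * h ∈ A := by
  have h1 : g⁻¹ * h ∈ A.subgroupOf (NA A) := QuotientGroup.eq.mp e
  exact h1

/-- the data of the action of the Weyl group -/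
noncomputable def weylSQ (A : Subgroup G) : SQ G (Weyl A) where
  A := A
  s w := (rep w : G)
  norm w a ha := by
    have h1 := (Subgroup.mem_normalizer_iff.mp ((rep w)⁻¹).2 a).mp ha
    simpa using h1
  one := by
    have h1 : (QuotientGroup.mk (1 : NA A) : Weyl A) = QuotientGroup.mk (rep 1) :=
      (mk_rep (1 : Weyl A)).symm
    have h2 := mem_of_mk_eq h1
    simpa using h2
  mul w v := by
    have h1 : (QuotientGroup.mk (rep w * rep v) : Weyl A) = QuotientGroup.mk (rep (w * v)) := by
      rw [mk_rep, QuotientGroup.mk_mul, mk_rep, mk_rep]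
    exact mem_of_mk_eq h1

/-- The `A`-fixed points of a `G`-space with the action of the Weyl group `W = N(A) / A`. -/
noncomputable def wfix (X : GSpace G) (A : Subgroup G) : GSpace (Weyl A) := (weylSQ A).obj X

theorem und_wfix (X : GSpace G) (A : Subgroup G) : (wfix X A).und = X.fix A := rfl

theorem gfc_wfix [Finite G] {X : GSpace G} (hX : GFC G X) (A : Subgroup G) :
    GFC (Weyl A) (wfix X A) := (weylSQ A).gfc hX

/-- the inclusion of the fixed points -/
def wval (X : GSpace G) (A : Subgroup G) (x : (wfix X A).carrier) : X.carrier := x.1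

theorem smul_wval (X : GSpace G) (A : Subgroup G) (x : (wfix X A).carrier) {a : G} (ha : a ∈ A) :
    a • wval X A x = wval X A x := x.2 ⟨a, ha⟩

theorem wval_injective (X : GSpace G) (A : Subgroup G) : Function.Injective (wval X A) :=
  Subtype.val_injective

theorem isClosedEmbedding_wval (X : GSpace G) (A : Subgroup G) : IsClosedEmbedding (wval X A) :=
  (X.isClosed_fixedPoints A).isClosedEmbedding_subtypeVal

theorem mem_range_wval (X : GSpace G) (A : Subgroup G) (x : X.carrier) :
    x ∈ Set.range (wval X A) ↔ ∀ a ∈ A, a • x = x :=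
  ⟨by rintro ⟨y, rfl⟩ a ha; exact smul_wval X A y ha, fun h => ⟨⟨x, fun a => h a.1 a.2⟩, rfl⟩⟩

/-- the class of `g` in `N(A)` acts by `g` -/
theorem wval_smul (X : GSpace G) (A : Subgroup G) (g : NA A) (x : (wfix X A).carrier) :
    wval X A ((QuotientGroup.mk g : Weyl A) • x) = (g : G) • wval X A x :=
  ((weylSQ A).smul_eq_of_inv_mul_mem (g := (weylSQ A).s (QuotientGroup.mk g : Weyl A))
    (mem_of_mk_eq (mk_rep (QuotientGroup.mk g : Weyl A))) x.2).symm

theorem fι_smul_mk (X : GSpace G) (A : Subgroup G) (g : NA A) (x : (wfix X A).und.Pt) :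
    app (fι X A) ((wfix X A).smul (QuotientGroup.mk g : Weyl A) x) =
      X.smul (g : G) (app (fι X A) x) := by
  induction x using OnePoint.rec with
  | infty => rfl
  | coe x => exact congrArg (OnePoint.some (X := X.carrier)) (wval_smul X A g x)

/-- `(X^A)^V = X^B` for the preimage `B` of `V ≤ N(A) / A`. -/
noncomputable def wfixHomeo (X : GSpace G) (A : Subgroup G) (V : Subgroup (Weyl A)) :
    ((wfix X A).fix V).carrier ≃ₜ (X.fix (ofWeyl A V)).carrier :=
  (weylSQ A).fixHomeo X V (ofWeyl A V) fun g => by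
    rw [mem_ofWeyl]
    constructor
    · rintro ⟨hg, hV⟩
      refine ⟨_, hV, ?_⟩
      exact mem_of_mk_eq (mk_rep (QuotientGroup.mk' (A.subgroupOf (NA A)) ⟨g, hg⟩))
    · rintro ⟨w, hw, hA⟩
      have hA' : (rep w : G)⁻¹ * g ∈ A := hA
      have hg : g ∈ NA A := by
        have h1 := (NA A).mul_mem (rep w).2 (Subgroup.le_normalizer hA')
        rwa [mul_inv_cancel_left] at h1
      refine ⟨hg, ?_⟩
      have h2 : (QuotientGroup.mk (rep w) : Weyl A) = QuotientGroup.mk ⟨g, hg⟩ :=
        QuotientGroup.eq.mpr hA'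
      rw [mk_rep] at h2
      have h3 : (QuotientGroup.mk' (A.subgroupOf (NA A)) ⟨g, hg⟩ : Weyl A) = w := h2.symm
      rw [h3]
      exact hw

end Vale.Agent.P241.H32
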