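import Vale.Agent.P241.H32.Triv
import Vale.Agent.P241.H208.Young
import Vale.Agent.P241.Final.Assemble

/-!
# P241: the closure properties of finite `G`-cell spaces in the form of the assembly

* `trivGFC : Final.TrivGFC`;
* `powGFC : H208.PowGFC`.
-/

open Vale.Agent.P251.St Vale.Agent.P241.St Vale.Agent.P241.Geo

namespace Vale.Agent.P241.H32

/-- A finite cell space with trivial action is a finite `G`-cell space. -/
theorem trivGFC : Final.TrivGFC := fun _ _ _ _ hY => gfc_triv hY

/-- the product with a line -/
theorem gfc_line {G : Type} [Group G] [Finite G] {X : GSpace G} (hX : GFC G X) :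
    GFC G (xt X Rr) := gfc_xt hX fcRr

/-- Powers of finite `G`-cell spaces, times a line. -/
theorem powGFC : H208.PowGFC := fun _ _ _ _ hX m => gfc_line (gfc_powG hX m)

end Vale.Agent.P241.H32
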