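import Vale.Agent.P241.H32.Weyl
import Vale.Agent.P241.H40.NearRes

/-!
# P241: restriction to subgroups preserves finite cell spaces

* `resGFC : H40.ResGFC`.
-/

open Vale.Agent.P251.St Vale.Agent.P241.St

namespace Vale.Agent.P241.H32

/-- Restriction to subgroups preserves finite cell spaces. -/
theorem resGFC : H40.ResGFC := fun _ _ _ B _ hX => gfc_res B.subtype hX

end Vale.Agent.P241.H32
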