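import Vale.Agent.P241.H32.Prod
import Vale.Agent.P241.H208.PowFix

/-!
# P241: spaces with trivial action and powers as finite `G`-cell spaces

* `gfc_triv` : a finite cell space with the trivial action is a finite `G`-cell space;
* `gfc_xt` : `X × S` for a finite `G`-cell space `X` and a finite cell space `S`;
* `gfc_powG` : the power `Xᵐ` (pointwise action).
-/

open CategoryTheory MonoidalCategory OnePoint Topology

namespace Vale.Agent.P241.H32

open Vale.Agent.P251 Vale.Agent.P251.St Vale.Agent.P251.G Vale.Agent.P251.G.LC
open Vale.Agent.P241.St Vale.Agent.P241.H486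

variable {G : Type} [Group G]

theorem triv_smul (Y : Space) (g : G) (y : Y.Pt) : (GSpace.triv G Y).smul g y = y := by
  induction y using OnePoint.rec with
  | infty => rfl
  | coe y => rfl

theorem isGMap_triv {X Y : Space} (f : X.Pt → Y.Pt) :
    IsGMap (X := GSpace.triv G X) (Y := GSpace.triv G Y) f := fun g x =>
  (congrArg f (triv_smul X g x)).trans (triv_smul Y g (f x)).symm

theorem gHomotopic_triv {X Y : Space} {f g : X.Pt → Y.Pt} (h : St.Homotopic (X := X) (Y := Y) f g) :
    GHomotopic (X := GSpace.triv G X) (Y := GSpace.triv G Y) f g := by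
  obtain ⟨H, hH, h0, h1⟩ := h
  exact ⟨H, ⟨hH, fun t => isGMap_triv (H t)⟩, h0, h1⟩

theorem gHEquiv_triv {X Y : Space} (h : St.HEquiv X Y) :
    GHEquiv (GSpace.triv G X) (GSpace.triv G Y) := by
  obtain ⟨f, g, h1, h2⟩ := h
  exact ⟨f, g, isGMap_triv _, isGMap_triv _, gHomotopic_triv h1, gHomotopic_triv h2⟩

theorem gcofib_triv {A B : Space} {i : Map A B} (h : St.Cofib i) :
    GCofib (A := GSpace.triv G A) (B := GSpace.triv G B) i := by
  have h1 : LC.Cofib (toHom i) := (cofib_iff i).1 h
  obtain ⟨r, hr⟩ := h1.exists_isRetr
  refine gcofib_of_isRetr (A := GSpace.triv G A) (B := GSpace.triv G B) (isGMap_triv _)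
    h1.injective' (r := r) hr ?_
  intro g b t
  have h2 : ∀ p : (cylG (GSpace.triv G B) ⟨unitInterval⟩).und.Pt,
      (cylG (GSpace.triv G B) ⟨unitInterval⟩).smul g p = p := by
    intro p
    induction p using OnePoint.rec with
    | infty => rfl
    | coe p => rfl
  exact (congrArg (fun x => app r (LC.smash x (t : OnePoint unitInterval)))
    (triv_smul B g b)).trans (h2 _).symm

/-- A sphere with trivial action -/
def trivRn (n : ℕ) : (dset G PUnit n).carrier ≃ₜ (GSpace.triv G (Rn n)).carrier where
  toFun x := x.2
  invFun x := (PUnit.unit, x)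
  left_inv _ := rfl
  right_inv _ := rfl
  continuous_toFun := by
    let _ : TopologicalSpace PUnit := ⊥
    exact continuous_snd (X := PUnit) (Y := Fin n → ℝ)
  continuous_invFun := by
    let _ : TopologicalSpace PUnit := ⊥
    exact (continuous_const (X := Fin n → ℝ) (Y := PUnit)).prodMk continuous_id

/-- A finite cell space with the trivial action is a finite `G`-cell space. -/
theorem gfc_triv {Y : Space} (hY : St.FC Y) : GFC G (GSpace.triv G Y) := by
  induction hY with
  | empty => exact GFC.empty
  | sph n => exact gfc_of_homeo (gfc_finset PUnit n) (trivRn n) fun _ _ => rfl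
  | hequiv _ h ih => exact .hequiv ih (gHEquiv_triv h)
  | @ext A B C i q hi hq _ _ ihA ihC =>
    exact GFC.ext (A := GSpace.triv G A) (B := GSpace.triv G B) (C := GSpace.triv G C)
      (i := i) (q := q) (isGMap_triv _) (isGMap_triv _) (gcofib_triv hi) hq ihA ihC

/-- the product with a finite cell space -/
theorem gfc_xt [Finite G] {X : GSpace G} (hX : GFC G X) {S : Space} (hS : St.FC S) :
    GFC G (X.prod (GSpace.triv G S)) := gfc_prod hX (gfc_triv hS)

open H208 in
/-- `X⁰` -/
def powZero (X : GSpace G) : (dset G PUnit 0).carrier ≃ₜ (powG X (Fin 0)).carrier where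
  toFun _ := fun i => i.elim0
  invFun _ := (PUnit.unit, fun i => i.elim0)
  left_inv _ := Prod.ext rfl (funext fun i => i.elim0)
  right_inv _ := funext fun i => i.elim0
  continuous_toFun := continuous_const
  continuous_invFun := continuous_const

open H208 in
/-- `Xᵐ⁺¹ = X × Xᵐ` -/
def powSucc (X : GSpace G) (m : ℕ) :
    (X.prod (powG X (Fin m))).carrier ≃ₜ (powG X (Fin (m + 1))).carrier where
  toFun p := Fin.cons (α := fun _ => X.carrier) p.1 p.2
  invFun f := (f 0, fun i => f i.succ)
  left_inv p := by
    obtain ⟨x, y⟩ := p
    exact Prod.ext (Fin.cons_zero (α := fun _ => X.carrier) x y)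
      (funext fun i => Fin.cons_succ (α := fun _ => X.carrier) x y i)
  right_inv f := by
    funext i
    induction i using Fin.cases with
    | zero => rfl
    | succ i => rfl
  continuous_toFun := by
    refine continuous_pi fun i => ?_
    induction i using Fin.cases with
    | zero => exact continuous_fst
    | succ i => exact (continuous_apply i).comp continuous_snd
  continuous_invFun := (continuous_apply (0 : Fin (m + 1))).prodMk
    (continuous_pi fun i => continuous_apply i.succ)

open H208 in
/-- Powers of finite `G`-cell spaces. -/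
theorem gfc_powG [Finite G] {X : GSpace G} (hX : GFC G X) (m : ℕ) :
    GFC G (powG X (Fin m)) := by
  induction m with
  | zero =>
    refine gfc_of_homeo (gfc_finset PUnit 0) (powZero X) fun g x => ?_
    exact funext fun i => i.elim0
  | succ m ih =>
    refine gfc_of_homeo (gfc_prod hX ih) (powSucc X m) fun g p => ?_
    funext i
    induction i using Fin.cases with
    | zero => rfl
    | succ i => rfl

end Vale.Agent.P241.H32
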