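import Vale.Agent.P241.H32.Sq

/-!
# P241: disjoint unions, finite `G`-sets

* `gHEquiv_of_homeo` : a `G`-homeomorphism is a `G`-homotopy equivalence;
* `gfc_of_disjoint` : a `G`-space which is the disjoint union of two open invariant finite
  `G`-cell spaces is a finite `G`-cell space;
* `dset G I n` : the `G`-space `I × ℝⁿ` for a `G`-set `I`; `gfc_dset` : it is a finite `G`-cell
  space if `I` is finite.
-/

open CategoryTheory MonoidalCategory OnePoint Topology Filter

namespace Vale.Agent.P241.H32

open Vale.Agent.P251 Vale.Agent.P251.St Vale.Agent.P251.G Vale.Agent.P251.G.LC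
open Vale.Agent.P241.St Vale.Agent.P241.H486

variable {G : Type} [Group G]

/-! ### homeomorphisms -/

theorem isGMap_ofClosed {X Y : GSpace G} (f : X.carrier → Y.carrier) (hf : IsClosedEmbedding f)
    (hG : ∀ (g : G) (x : X.carrier), f (g • x) = g • f x) :
    IsGMap (X := X) (Y := Y) (app (ofClosed (X := toLC X.und) (Y := toLC Y.und) f hf)) := by
  intro g x
  induction x using OnePoint.rec with
  | infty => rfl
  | coe x => exact congrArg (OnePoint.some (X := Y.carrier)) (hG g x)

theorem gHomotopic_refl {X Y : GSpace G} (f : toLC X.und ⟶ toLC Y.und)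
    (hf : IsGMap (X := X) (Y := Y) (app f)) : GHomotopic (X := X) (Y := Y) (app f) (app f) :=
  ⟨fun _ => app f, ⟨⟨(continuous_app f).comp continuous_snd, fun _ => app_infty f⟩, fun _ => hf⟩,
    rfl, rfl⟩

theorem gHEquiv_of_homeo {X Y : GSpace G} (e : X.carrier ≃ₜ Y.carrier)
    (he : ∀ (g : G) (x : X.carrier), e (g • x) = g • e x) : GHEquiv X Y := by
  have he' : ∀ (g : G) (y : Y.carrier), e.symm (g • y) = g • e.symm y := by
    intro g y
    rw [Homeomorph.symm_apply_eq, he, Homeomorph.apply_symm_apply]
  have hid : ∀ {Z : GSpace G}, IsGMap (X := Z) (Y := Z) (app (𝟙 (toLC Z.und))) :=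
    fun {Z} g x => by rw [app_id, app_id]
  let i : toLC X.und ≅ toLC Y.und := ofHomeo (X := toLC X.und) (Y := toLC Y.und) e
  refine ⟨ofHom i.hom, ofHom i.inv, isGMap_ofClosed e e.isClosedEmbedding he,
    isGMap_ofClosed e.symm e.symm.isClosedEmbedding he', ?_, ?_⟩
  · have h1 : i.hom ≫ i.inv = 𝟙 _ := i.hom_inv_id
    have h2 := gHomotopic_refl (X := X) (Y := X) (𝟙 _) hid
    have h3 : (ofHom i.inv).toFun ∘ (ofHom i.hom).toFun = app (𝟙 (toLC X.und)) := by
      rw [← h1]
      rfl
    rw [h3]
    exact h2
  · have h1 : i.inv ≫ i.hom = 𝟙 _ := i.inv_hom_id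
    have h2 := gHomotopic_refl (X := Y) (Y := Y) (𝟙 _) hid
    have h3 : (ofHom i.hom).toFun ∘ (ofHom i.inv).toFun = app (𝟙 (toLC Y.und)) := by
      rw [← h1]
      rfl
    rw [h3]
    exact h2

/-- `G`-homeomorphic copies of finite `G`-cell spaces -/
theorem gfc_of_homeo {X Y : GSpace G} (hX : GFC G X) (e : X.carrier ≃ₜ Y.carrier)
    (he : ∀ (g : G) (x : X.carrier), e (g • x) = g • e x) : GFC G Y :=
  .hequiv hX (gHEquiv_of_homeo e he)

theorem gfc_of_isEmpty {X : GSpace G} (h : IsEmpty X.carrier) : GFC G X := by
  have h' : IsEmpty (GSpace.triv G Em).carrier := inferInstanceAs (IsEmpty Empty)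
  refine gfc_of_homeo GFC.empty (Homeomorph.empty : (GSpace.triv G Em).carrier ≃ₜ X.carrier) ?_
  intro g x
  exact h'.elim x

/-! ### disjoint unions -/

section disj

variable {A B C : GSpace G} (a : A.carrier → B.carrier) (c : C.carrier → B.carrier)

theorem isClosedEmbedding_of_isCompl (ha : IsOpenEmbedding a) (hc : IsOpenEmbedding c)
    (hac : IsCompl (Set.range a) (Set.range c)) : IsClosedEmbedding a := by
  refine ⟨ha.isEmbedding, ?_⟩
  rw [← isOpen_compl_iff, hac.compl_eq]
  exact hc.isOpen_range

open scoped Classical in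
/-- the retraction of the cylinder -/
noncomputable def disjRetr (ha : IsOpenEmbedding a) (hc : IsOpenEmbedding c)
    (hac : IsCompl (Set.range a) (Set.range c)) : toLC B.und ⊗ II ⟶ toLC B.und ⊗ II :=
  ofProper (X := LC.of (B.carrier × unitInterval)) (Y := LC.of (B.carrier × unitInterval))
    (fun p => (p.1, if p.1 ∈ Set.range a then p.2 else 0))
    (by
      refine continuous_fst.prodMk ?_
      have hcl : IsClosed (Set.range a) := (isClosedEmbedding_of_isCompl a c ha hc hac).isClosed_range
      refine continuous_if' ?_ ?_ continuous_snd.continuousOn continuous_const.continuousOn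
      · intro p hp
        exfalso
        have h1 : frontier {p : B.carrier × unitInterval | p.1 ∈ Set.range a} = ∅ := by
          refine IsClopen.frontier_eq ⟨?_, ?_⟩
          · exact hcl.preimage continuous_fst
          · exact ha.isOpen_range.preimage continuous_fst
        rw [h1] at hp
        exact hp
      · intro p hp
        exfalso
        have h1 : frontier {p : B.carrier × unitInterval | p.1 ∈ Set.range a} = ∅ := by
          refine IsClopen.frontier_eq ⟨?_, ?_⟩
          · exact hcl.preimage continuous_fst
          · exact ha.isOpen_range.preimage continuous_fst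
        rw [h1] at hp
        exact hp)
    (by
      intro K hK
      obtain ⟨L, hL, hLK⟩ := mem_cocompact.mp hK
      refine mem_cocompact.mpr ⟨(Prod.fst '' L) ×ˢ Set.univ,
        (hL.image continuous_fst).prod isCompact_univ, ?_⟩
      intro p hp
      apply hLK
      intro hq
      exact hp ⟨⟨_, hq, rfl⟩, Set.mem_univ _⟩)

theorem mem_range_ofClosed (f : A.carrier → B.carrier) (hf : IsClosedEmbedding f)
    (b : B.carrier) : (b : OnePoint B.carrier) ∈
      Set.range (app (ofClosed (X := toLC A.und) (Y := toLC B.und) f hf)) ↔ b ∈ Set.range f := by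
  constructor
  · rintro ⟨x, hx⟩
    induction x using OnePoint.rec with
    | infty => exact absurd (hx.symm.trans (app_infty _)) (OnePoint.coe_ne_infty _)
    | coe x => exact ⟨x, OnePoint.coe_injective hx⟩
  · rintro ⟨x, rfl⟩
    exact ⟨(x : OnePoint A.carrier), rfl⟩

/-- A `G`-space which is the disjoint union of two open invariant finite `G`-cell spaces is a
finite `G`-cell space. -/
theorem gfc_of_disjoint (ha : IsOpenEmbedding a) (hc : IsOpenEmbedding c)
    (hac : IsCompl (Set.range a) (Set.range c))
    (haG : ∀ (g : G) (x : A.carrier), a (g • x) = g • a x)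
    (hcG : ∀ (g : G) (x : C.carrier), c (g • x) = g • c x)
    (hA : GFC G A) (hC : GFC G C) : GFC G B := by
  classical
  have hcl := isClosedEmbedding_of_isCompl a c ha hc hac
  let i : toLC A.und ⟶ toLC B.und := ofClosed (X := toLC A.und) (Y := toLC B.und) a hcl
  let q : toLC B.und ⟶ toLC C.und := ofOpen (X := toLC B.und) (Y := toLC C.und) c hc
  have hiinj : Function.Injective (app i) := app_injective_ofClosed (X := toLC A.und)
    (Y := toLC B.und) hcl
  have hdisj : ∀ x : B.carrier, x ∈ Set.range a → x ∉ Set.range c := fun x h1 h2 =>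
    (Set.disjoint_left.mp hac.disjoint) h1 h2
  have hcov : ∀ x : B.carrier, x ∈ Set.range a ∨ x ∈ Set.range c := by
    intro x
    have h1 : Set.range a ⊔ Set.range c = ⊤ := hac.sup_eq_top
    have h2 : x ∈ (⊤ : Set B.carrier) := trivial
    rw [← h1] at h2
    exact h2
  have hqc : ∀ x : C.carrier, app q ((c x : B.carrier) : OnePoint B.carrier) =
      (x : OnePoint C.carrier) := fun x => app_ofOpen_coe (X := toLC B.und) (Y := toLC C.und) c hc x
  have hqn : ∀ x : B.carrier, x ∉ Set.range c → app q (x : OnePoint B.carrier) = ∞ := fun x hx =>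
    app_ofOpen_of_notMem (X := toLC B.und) (Y := toLC C.und) c hc hx
  have hiG : IsGMap (X := A) (Y := B) (app i) := isGMap_ofClosed a hcl haG
  have hqG : IsGMap (X := B) (Y := C) (app q) := by
    intro g x
    induction x using OnePoint.rec with
    | infty => exact (app_infty q).trans (congrArg (C.smul g) (app_infty q).symm)
    | coe x =>
      by_cases hx : x ∈ Set.range c
      · obtain ⟨y, rfl⟩ := hx
        refine Eq.trans ?_ (congrArg (C.smul g) (hqc y).symm)
        change app q ((g • c y : B.carrier) : OnePoint B.carrier) =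
          ((g • y : C.carrier) : OnePoint C.carrier)
        rw [← hcG]
        exact hqc _
      · refine Eq.trans ?_ (congrArg (C.smul g) (hqn x hx).symm)
        refine hqn (g • x) ?_
        rintro ⟨y, hy⟩
        apply hx
        refine ⟨g⁻¹ • y, ?_⟩
        rw [hcG, hy, inv_smul_smul]
  refine GFC.ext (A := A) (B := B) (C := C) (i := ofHom i) (q := ofHom q) hiG hqG ?_ ⟨?_, ?_⟩
    hA hC
  · -- cofibration
    have hmem : ∀ b : B.carrier, (b : OnePoint B.carrier) ∈ Set.range (app i) ↔
        b ∈ Set.range a := mem_range_ofClosed a hcl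
    have hr : ∀ (b : B.carrier) (t : unitInterval),
        app (disjRetr a c ha hc hac) (LC.smash (b : OnePoint B.carrier) (t : OnePoint unitInterval))
          = LC.smash (b : OnePoint B.carrier)
            ((if b ∈ Set.range a then t else 0 : unitInterval) : OnePoint unitInterval) :=
      fun b t => rfl
    refine gcofib_of_isRetr (A := A) (B := B) (i := ofHom i) hiG hiinj
      (r := disjRetr a c ha hc hac) ⟨?_, ?_, ?_⟩ ?_
    · intro b
      induction b using OnePoint.rec with
      | infty => rfl
      | coe b =>
        rw [hr]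
        split_ifs <;> rfl
    · intro b hb t
      induction b using OnePoint.rec with
      | infty => rfl
      | coe b => rw [hr, if_pos ((hmem b).mp hb)]
    · intro p
      induction p using OnePoint.rec with
      | infty => exact ⟨∞, 0, rfl, Or.inl rfl⟩
      | coe p =>
        obtain ⟨b, t⟩ := p
        refine ⟨(b : OnePoint B.carrier), if b ∈ Set.range a then t else 0, hr b t, ?_⟩
        by_cases hb : b ∈ Set.range a
        · exact Or.inr ((hmem b).mpr hb)
        · exact Or.inl (if_neg hb)
    · intro g b t
      induction b using OnePoint.rec with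
      | infty => rfl
      | coe b =>
        have hgb : (g • b ∈ Set.range a) ↔ b ∈ Set.range a := by
          constructor
          · rintro ⟨y, hy⟩
            exact ⟨g⁻¹ • y, by rw [haG, hy, inv_smul_smul]⟩
          · rintro ⟨y, rfl⟩
            exact ⟨g • y, haG g y⟩
        refine (hr (g • b) t).trans ?_
        rw [hr]
        refine Eq.trans ?_ (smul_smash B ⟨unitInterval⟩ g _ _).symm
        by_cases hb : b ∈ Set.range a
        · rw [if_pos hb, if_pos (hgb.mpr hb)]
          rfl
        · rw [if_neg hb, if_neg (fun h => hb (hgb.mp h))]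
          rfl
  · -- surjectivity
    intro x
    induction x using OnePoint.rec with
    | infty => exact ⟨∞, app_infty q⟩
    | coe x => exact ⟨_, hqc x⟩
  · have hinf : ∀ b : B.und.Pt, app q b = ∞ ↔ b ∈ Set.range (app i) := by
      intro b
      induction b using OnePoint.rec with
      | infty => exact ⟨fun _ => ⟨∞, app_infty i⟩, fun _ => app_infty q⟩
      | coe b =>
        rw [mem_range_ofClosed a hcl]
        constructor
        · intro h
          refine (hcov b).resolve_right ?_
          rintro ⟨y, rfl⟩
          exact OnePoint.coe_ne_infty _ ((hqc y).symm.trans h)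
        · intro h
          exact hqn b (hdisj b h)
    intro b b'
    change app q b = app q b' ↔ b = b' ∨ (b ∈ Set.range (app i) ∧ b' ∈ Set.range (app i))
    constructor
    · intro h
      by_cases hb : b ∈ Set.range (app i)
      · exact Or.inr ⟨hb, (hinf b').mp (h.symm.trans ((hinf b).mpr hb))⟩
      · left
        have hb' : b' ∉ Set.range (app i) := fun h' =>
          hb ((hinf b).mp (h.trans ((hinf b').mpr h')))
        have key : ∀ z : B.und.Pt, z ∉ Set.range (app i) → ∃ y : C.carrier,
            z = ((c y : B.carrier) : OnePoint B.carrier) := by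
          intro z hz
          induction z using OnePoint.rec with
          | infty => exact absurd ⟨∞, app_infty i⟩ hz
          | coe z =>
            obtain ⟨y, hy⟩ := (hcov z).resolve_left fun h => hz ((mem_range_ofClosed a hcl z).mpr h)
            exact ⟨y, congrArg _ hy.symm⟩
        obtain ⟨y, rfl⟩ := key b hb
        obtain ⟨y', rfl⟩ := key b' hb'
        have h1 := (hqc y).symm.trans (h.trans (hqc y'))
        rw [OnePoint.coe_injective h1]
    · rintro (rfl | ⟨h1, h2⟩)
      · rfl
      · exact ((hinf b).mpr h1).trans ((hinf b').mpr h2).symm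

end disj

/-! ### finite `G`-sets -/

/-- The `G`-space `I × ℝⁿ` for a `G`-set `I` (with the discrete topology). -/
def dset (G : Type) [Group G] (I : Type) [MulAction G I] (n : ℕ) : GSpace G :=
  letI : TopologicalSpace I := ⊥
  haveI : DiscreteTopology I := ⟨rfl⟩
  haveI : LocallyCompactSpace I := lc_of_discrete _
  letI : MulAction G (I × (Fin n → ℝ)) :=
    { smul := fun g x => (g • x.1, x.2)
      one_smul := fun x => Prod.ext (one_smul G x.1) rfl
      mul_smul := fun g h x => Prod.ext (mul_smul g h x.1) rfl }
  haveI : ContinuousConstSMul G (I × (Fin n → ℝ)) :=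
    ⟨fun _ => (continuous_of_discreteTopology.comp continuous_fst).prodMk continuous_snd⟩
  ⟨I × (Fin n → ℝ)⟩

theorem cell_eq_dset (V : Subgroup G) (n : ℕ) : cell G V n = dset G (G ⧸ V) n := rfl

theorem isOpenEmbedding_dset {I J : Type} [MulAction G I] [MulAction G J] (n : ℕ) (f : I → J)
    (hf : Function.Injective f) :
    IsOpenEmbedding (X := (dset G I n).carrier) (Y := (dset G J n).carrier)
      (fun x => (f x.1, x.2)) := by
  let _ : TopologicalSpace I := ⊥
  have _ : DiscreteTopology I := ⟨rfl⟩
  let _ : TopologicalSpace J := ⊥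
  have _ : DiscreteTopology J := ⟨rfl⟩
  exact (IsOpenEmbedding.of_continuous_injective_isOpenMap continuous_of_discreteTopology hf
    (fun _ _ => isOpen_discrete _)).prodMap IsOpenEmbedding.id

theorem gfc_dset (n : ℕ) : ∀ (k : ℕ) (I : Type) [MulAction G I] [Finite I], Nat.card I = k →
    GFC G (dset G I n) := by
  intro k
  induction k using Nat.strong_induction_on with
  | _ k ih =>
    intro I _ _ hk
    rcases isEmpty_or_nonempty I with hI | ⟨⟨x⟩⟩
    · exact gfc_of_isEmpty ⟨fun y => hI.elim y.1⟩
    · let J := {y : I // y ∉ MulAction.orbit G x}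
      let _ : MulAction G J :=
        { smul := fun g y => ⟨g • y.1, fun h => y.2 (by
            obtain ⟨k, hk⟩ := h
            refine ⟨g⁻¹ * k, ?_⟩
            change (g⁻¹ * k) • x = y.1
            rw [mul_smul]
            exact inv_smul_eq_iff.mpr hk)⟩
          one_smul := fun y => Subtype.ext (one_smul G y.1)
          mul_smul := fun g h y => Subtype.ext (mul_smul g h y.1) }
      have hlt : Nat.card J < k := by
        rw [← hk]
        exact Finite.card_subtype_lt (x := x) fun h => h (MulAction.mem_orbit_self x)
      refine gfc_of_disjoint (A := cell G (MulAction.stabilizer G x) n) (B := dset G I n)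
        (C := dset G J n) (fun y => (MulAction.ofQuotientStabilizer G x y.1, y.2))
        (fun y => (y.1.1, y.2))
        (isOpenEmbedding_dset (I := G ⧸ MulAction.stabilizer G x) (J := I) n _
          (MulAction.injective_ofQuotientStabilizer G x))
        (isOpenEmbedding_dset (I := J) (J := I) n _ Subtype.val_injective) ?_ ?_ ?_
        (GFC.cell _ n) (ih _ hlt J rfl)
      · rw [isCompl_iff]
        constructor
        · rw [Set.disjoint_left]
          rintro _ ⟨y, rfl⟩ ⟨z, hz⟩
          apply z.1.2
          have h1 : z.1.1 = MulAction.ofQuotientStabilizer G x y.1 := congrArg Prod.fst hz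
          rw [h1]
          exact MulAction.ofQuotientStabilizer_mem_orbit G x _
        · rw [codisjoint_iff_le_sup]
          rintro ⟨y, v⟩ -
          by_cases hy : y ∈ MulAction.orbit G x
          · obtain ⟨g, hg⟩ := hy
            exact Or.inl ⟨(QuotientGroup.mk g, v), Prod.ext hg rfl⟩
          · exact Or.inr ⟨(⟨y, hy⟩, v), rfl⟩
      · intro g y
        exact Prod.ext (MulAction.ofQuotientStabilizer_smul G x g y.1) rfl
      · intro g y
        rfl

/-- `I × ℝⁿ` is a finite `G`-cell space for a finite `G`-set `I`. -/
theorem gfc_finset (I : Type) [MulAction G I] [Finite I] (n : ℕ) : GFC G (dset G I n) :=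
  gfc_dset n _ I rfl

end Vale.Agent.P241.H32
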