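import Vale.Agent.P241.H32.Cells
import Vale.Agent.P241.H486.Ndr

/-!
# P241: products of finite `G`-cell spaces

* `gHEquiv_prodRight`, `isQuot_prodRight` : `X ↦ X × D` preserves `G`-homotopy equivalences and
  quotients (cofibrations: `H486.gcofib_prodRight`);
* `gfc_prod` : the product (diagonal action) of finite `G`-cell spaces, `G` finite;
* `gfc_triv` : a finite cell space with the trivial action.
-/

open CategoryTheory MonoidalCategory OnePoint Topology

namespace Vale.Agent.P241.H32

open Vale.Agent.P251 Vale.Agent.P251.St Vale.Agent.P251.G Vale.Agent.P251.G.LC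
open Vale.Agent.P241.St Vale.Agent.P241.H486

variable {G : Type} [Group G]

section right

variable {A B C : GSpace G} (D : GSpace G)

/-- `f × D` is equivariant -/
theorem isGMap_prodRight {f : toLC A.und ⟶ toLC B.und} (hf : IsGMap (X := A) (Y := B) (app f)) :
    IsGMap (X := A.prod D) (Y := B.prod D) (app (f ▷ toLC D.und)) := by
  intro g p
  obtain ⟨a, d, rfl⟩ := smash_surjective (X := A.carrier) (Y := D.carrier) p
  have h1 : app (f ▷ toLC D.und) (LC.smash a d) = LC.smash (app f a) d :=
    app_whiskerRight_smash f (toLC D.und) a d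
  have h2 : app (f ▷ toLC D.und) (LC.smash (A.smul g a) (D.smul g d)) =
      LC.smash (app f (A.smul g a)) (D.smul g d) :=
    app_whiskerRight_smash f (toLC D.und) (A.smul g a) (D.smul g d)
  refine (congrArg (app (f ▷ toLC D.und)) (smul_prod A D g a d)).trans (h2.trans ?_)
  refine (congrArg (fun x => LC.smash x (D.smul g d)) (hf g a)).trans ?_
  exact (smul_prod B D g _ _).symm.trans (congrArg ((B.prod D).smul g) h1.symm)

/-- `H × D` for a `G`-homotopy `H` -/
theorem gHomotopic_prodRight {f g : toLC A.und ⟶ toLC B.und}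
    (h : GHomotopic (X := A) (Y := B) (app f) (app g)) :
    GHomotopic (X := A.prod D) (Y := B.prod D) (app (f ▷ toLC D.und))
      (app (g ▷ toLC D.und)) := by
  obtain ⟨H, ⟨hH, hG⟩, h0, h1⟩ := h
  let K : (toLC A.und ⊗ toLC D.und) ⊗ II ⟶ toLC B.und ⊗ toLC D.und :=
    (shuf (toLC A.und) (toLC D.und)).hom ≫ htpyMap H hH ▷ toLC D.und
  have hK : ∀ (a : A.und.Pt) (d : D.und.Pt) (t : unitInterval),
      app K (LC.smash (LC.smash a d) (t : OnePoint unitInterval)) = LC.smash (H t a) d := by
    intro a d t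
    change app (htpyMap H hH ▷ toLC D.und) (app (shuf (toLC A.und) (toLC D.und)).hom
      (LC.smash (LC.smash a d) (t : OnePoint unitInterval))) = _
    rw [app_shuf, app_whiskerRight_smash]
    exact congrArg (fun x => LC.smash x d) (app_htpyMap H hH a t)
  refine ⟨fun t x => app K (LC.smash x (t : OnePoint unitInterval)),
    ⟨isHtpy_of_hom (X := (A.prod D).und) (Y := (B.prod D).und) K, ?_⟩, ?_, ?_⟩
  · intro t g p
    obtain ⟨a, d, rfl⟩ := smash_surjective (X := A.carrier) (Y := D.carrier) p
    change app K (LC.smash ((A.prod D).smul g (LC.smash a d)) (t : OnePoint unitInterval)) =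
      (B.prod D).smul g (app K (LC.smash (LC.smash a d) (t : OnePoint unitInterval)))
    refine (congrArg (fun x => app K (LC.smash x (t : OnePoint unitInterval)))
      (smul_prod A D g a d)).trans ((hK _ _ t).trans ?_)
    refine (congrArg (fun x => LC.smash x (D.smul g d)) (hG t g a)).trans ?_
    exact (smul_prod B D g _ _).symm.trans (congrArg ((B.prod D).smul g) (hK a d t).symm)
  · funext p
    obtain ⟨a, d, rfl⟩ := smash_surjective (X := A.carrier) (Y := D.carrier) p
    refine (hK a d 0).trans ?_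
    rw [h0]
    exact (app_whiskerRight_smash f (toLC D.und) a d).symm
  · funext p
    obtain ⟨a, d, rfl⟩ := smash_surjective (X := A.carrier) (Y := D.carrier) p
    refine (hK a d 1).trans ?_
    rw [h1]
    exact (app_whiskerRight_smash g (toLC D.und) a d).symm

/-- `X ↦ X × D` preserves `G`-homotopy equivalences -/
theorem gHEquiv_prodRight (h : GHEquiv A B) : GHEquiv (A.prod D) (B.prod D) := by
  obtain ⟨f, g, hf, hg, h1, h2⟩ := h
  refine ⟨ofHom (X := (A.prod D).und) (Y := (B.prod D).und) (toHom f ▷ toLC D.und),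
    ofHom (X := (B.prod D).und) (Y := (A.prod D).und) (toHom g ▷ toLC D.und),
    isGMap_prodRight D (f := toHom f) hf, isGMap_prodRight D (f := toHom g) hg, ?_, ?_⟩
  · have hid : app (𝟙 (toLC A.und)) = id := funext fun x => app_id _ x
    have hid' : app (𝟙 (toLC A.und ⊗ toLC D.und)) = id := funext fun x => app_id _ x
    have h3 : GHomotopic (X := A) (Y := A) (app (toHom f ≫ toHom g)) (app (𝟙 (toLC A.und))) := by
      rw [hid]
      exact h1
    have h4 := gHomotopic_prodRight D h3
    rw [comp_whiskerRight, id_whiskerRight, hid'] at h4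
    exact h4
  · have hid : app (𝟙 (toLC B.und)) = id := funext fun x => app_id _ x
    have hid' : app (𝟙 (toLC B.und ⊗ toLC D.und)) = id := funext fun x => app_id _ x
    have h3 : GHomotopic (X := B) (Y := B) (app (toHom g ≫ toHom f)) (app (𝟙 (toLC B.und))) := by
      rw [hid]
      exact h2
    have h4 := gHomotopic_prodRight D h3
    rw [comp_whiskerRight, id_whiskerRight, hid'] at h4
    exact h4

/-- `X ↦ X × D` preserves quotients -/
theorem isQuot_prodRight {i : Map A.und B.und} {q : Map B.und C.und} (h : IsQuot i q) :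
    IsQuot (ofHom (X := (A.prod D).und) (Y := (B.prod D).und) (toHom i ▷ toLC D.und))
      (ofHom (X := (B.prod D).und) (Y := (C.prod D).und) (toHom q ▷ toLC D.und)) := by
  have hI : ∀ (a : A.und.Pt) (d : D.und.Pt),
      app (toHom i ▷ toLC D.und) (LC.smash a d) = LC.smash (i.toFun a) d := fun a d =>
    app_whiskerRight_smash (toHom i) (toLC D.und) a d
  have hQ : ∀ (b : B.und.Pt) (d : D.und.Pt),
      app (toHom q ▷ toLC D.und) (LC.smash b d) = LC.smash (q.toFun b) d := fun b d =>
    app_whiskerRight_smash (toHom q) (toLC D.und) b d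
  have hinf : ∀ b : B.und.Pt, q.toFun b = ∞ ↔ b ∈ Set.range i.toFun := by
    intro b
    have h1 := h.2 b ∞
    rw [q.map_infty] at h1
    rw [h1]
    constructor
    · rintro (rfl | h2)
      · exact ⟨∞, i.map_infty⟩
      · exact h2.1
    · exact fun h2 => Or.inr ⟨h2, ⟨∞, i.map_infty⟩⟩
  have hF : ∀ p : (B.prod D).und.Pt, app (toHom q ▷ toLC D.und) p = ∞ ↔
      p ∈ Set.range (app (toHom i ▷ toLC D.und)) := by
    intro p
    obtain ⟨b, d, rfl⟩ := smash_surjective (X := B.carrier) (Y := D.carrier) p
    constructor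
    · intro hp
      have h1 : LC.smash (q.toFun b) d = ∞ := (hQ b d).symm.trans hp
      rcases smash_eq_infty.1 h1 with h2 | h2
      · obtain ⟨a, ha⟩ := (hinf b).1 h2
        exact ⟨LC.smash a d, (hI a d).trans (congrArg (fun x => LC.smash x d) ha)⟩
      · refine ⟨∞, (app_infty _).trans ?_⟩
        rw [h2]
        exact (smash_infty_right _).symm
    · rintro ⟨p, hp⟩
      obtain ⟨a, d', rfl⟩ := smash_surjective (X := A.carrier) (Y := D.carrier) p
      rw [← hp]
      refine (congrArg (app (toHom q ▷ toLC D.und)) (hI a d')).trans ((hQ _ _).trans ?_)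
      rw [(hinf _).2 ⟨a, rfl⟩]
      exact smash_infty_left _
  refine ⟨fun p => ?_, fun p p' => ?_⟩
  · obtain ⟨c, d, rfl⟩ := smash_surjective (X := C.carrier) (Y := D.carrier) p
    obtain ⟨b, rfl⟩ := h.1 c
    exact ⟨LC.smash b d, hQ b d⟩
  · change app (toHom q ▷ toLC D.und) p = app (toHom q ▷ toLC D.und) p' ↔ p = p' ∨
      (p ∈ Set.range (app (toHom i ▷ toLC D.und)) ∧ p' ∈ Set.range (app (toHom i ▷ toLC D.und)))
    rw [← hF, ← hF]
    constructor
    · intro hp
      by_cases h1 : app (toHom q ▷ toLC D.und) p = ∞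
      · exact Or.inr ⟨h1, hp.symm.trans h1⟩
      · left
        obtain ⟨b, d, rfl⟩ := smash_surjective (X := B.carrier) (Y := D.carrier) p
        obtain ⟨b', d', rfl⟩ := smash_surjective (X := B.carrier) (Y := D.carrier) p'
        have h2 : LC.smash (q.toFun b) d = LC.smash (q.toFun b') d' :=
          (hQ b d).symm.trans (hp.trans (hQ b' d'))
        have h3 : LC.smash (q.toFun b) d ≠ ∞ := fun h4 => h1 ((hQ b d).trans h4)
        have h4 : LC.smash (q.toFun b') d' ≠ ∞ := fun h5 => h3 (h2.trans h5)
        rw [Ne, smash_eq_infty, not_or] at h3 h4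
        obtain ⟨d, rfl⟩ := OnePoint.ne_infty_iff_exists.1 h3.2
        obtain ⟨d', rfl⟩ := OnePoint.ne_infty_iff_exists.1 h4.2
        obtain ⟨h5, h6⟩ := smash_coe_eq_iff.1 h2
        have h7 : d = d' := h6.resolve_left h3.1
        rcases (h.2 b b').1 h5 with h8 | h8
        · rw [h7, h8]
        · exact absurd ((hinf b).2 h8.1) h3.1
    · rintro (rfl | ⟨h1, h2⟩)
      · rfl
      · exact h1.trans h2.symm

/-- `X × D` for a finite `G`-cell space `X` if this holds for cells -/
theorem gfc_prod_of (hD : ∀ (V : Subgroup G) (n : ℕ), GFC G ((cell G V n).prod D))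
    {X : GSpace G} (hX : GFC G X) : GFC G (X.prod D) := by
  induction hX with
  | empty => exact gfc_of_isEmpty ⟨fun x => Empty.elim x.1⟩
  | cell V n => exact hD V n
  | hequiv _ h ih => exact .hequiv ih (gHEquiv_prodRight D h)
  | @ext A B C i q hi hq hcof hquot _ _ ihA ihC =>
    exact GFC.ext (A := A.prod D) (B := B.prod D) (C := C.prod D)
      (i := ofHom (X := (A.prod D).und) (Y := (B.prod D).und) (toHom i ▷ toLC D.und))
      (q := ofHom (X := (B.prod D).und) (Y := (C.prod D).und) (toHom q ▷ toLC D.und))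
      (isGMap_prodRight D (f := toHom i) hi) (isGMap_prodRight D (f := toHom q) hq)
      (gcofib_prodRight D hi hcof) (isQuot_prodRight D hquot) ihA ihC

end right

/-- `(I × ℝᵐ) × (J × ℝⁿ) = (I × J) × ℝᵐ⁺ⁿ` -/
noncomputable def dsetProd (I J : Type) [MulAction G I] [MulAction G J] (m n : ℕ) :
    ((dset G I m).prod (dset G J n)).carrier ≃ₜ (dset G (I × J) (m + n)).carrier where
  toFun p := ((p.1.1, p.2.1), Fin.appendHomeomorph (X := ℝ) m n (p.1.2, p.2.2))
  invFun p := ((p.1.1, ((Fin.appendHomeomorph (X := ℝ) m n).symm p.2).1),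
    (p.1.2, ((Fin.appendHomeomorph (X := ℝ) m n).symm p.2).2))
  left_inv p := by
    obtain ⟨⟨i, x⟩, ⟨j, y⟩⟩ := p
    change ((i, ((Fin.appendHomeomorph (X := ℝ) m n).symm
      (Fin.appendHomeomorph (X := ℝ) m n (x, y))).1), (j, ((Fin.appendHomeomorph (X := ℝ) m n).symm
      (Fin.appendHomeomorph (X := ℝ) m n (x, y))).2)) = ((i, x), (j, y))
    rw [Homeomorph.symm_apply_apply]
  right_inv p := Prod.ext rfl ((Fin.appendHomeomorph (X := ℝ) m n).apply_symm_apply p.2)
  continuous_toFun := by
    let _ : TopologicalSpace I := ⊥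
    have _ : DiscreteTopology I := ⟨rfl⟩
    let _ : TopologicalSpace J := ⊥
    have _ : DiscreteTopology J := ⟨rfl⟩
    have h1 : Continuous (fun p : (I × (Fin m → ℝ)) × (J × (Fin n → ℝ)) => (p.1.1, p.2.1)) :=
      (continuous_fst.comp continuous_fst).prodMk (continuous_fst.comp continuous_snd)
    have hd : (inferInstance : TopologicalSpace (I × J)) = ⊥ :=
      (inferInstance : DiscreteTopology (I × J)).eq_bot
    have h2 : @Continuous _ _ _ ⊥ (fun p : (I × (Fin m → ℝ)) × (J × (Fin n → ℝ)) =>
        (p.1.1, p.2.1)) := hd ▸ h1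
    have h3 : Continuous (fun p : (I × (Fin m → ℝ)) × (J × (Fin n → ℝ)) =>
        Fin.appendHomeomorph (X := ℝ) m n (p.1.2, p.2.2)) :=
      (Fin.appendHomeomorph (X := ℝ) m n).continuous.comp
        ((continuous_snd.comp continuous_fst).prodMk (continuous_snd.comp continuous_snd))
    exact @Continuous.prodMk _ _ _ ⊥ _ _ _ _ h2 h3
  continuous_invFun := by
    let _ : TopologicalSpace I := ⊥
    have _ : DiscreteTopology I := ⟨rfl⟩
    let _ : TopologicalSpace J := ⊥
    have _ : DiscreteTopology J := ⟨rfl⟩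
    let t : TopologicalSpace (I × J) := ⊥
    have ht : @DiscreteTopology _ t := ⟨rfl⟩
    have h1 : @Continuous _ _ (@instTopologicalSpaceProd _ _ t _) _
        (fun p : (I × J) × (Fin (m + n) → ℝ) => p.1.1) :=
      (@continuous_of_discreteTopology _ t ht _ _ (fun q : I × J => q.1)).comp
        (@continuous_fst _ _ t _)
    have h2 : @Continuous _ _ (@instTopologicalSpaceProd _ _ t _) _
        (fun p : (I × J) × (Fin (m + n) → ℝ) => p.1.2) :=
      (@continuous_of_discreteTopology _ t ht _ _ (fun q : I × J => q.2)).comp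
        (@continuous_fst _ _ t _)
    have h3 : @Continuous _ _ (@instTopologicalSpaceProd _ _ t _) _
        (fun p : (I × J) × (Fin (m + n) → ℝ) => (Fin.appendHomeomorph (X := ℝ) m n).symm p.2) :=
      (Fin.appendHomeomorph (X := ℝ) m n).symm.continuous.comp (@continuous_snd _ _ t _)
    exact @Continuous.prodMk _ _ _ _ _ (@instTopologicalSpaceProd _ _ t _) _ _
      (@Continuous.prodMk _ _ _ _ _ (@instTopologicalSpaceProd _ _ t _) _ _ h1
        (continuous_fst.comp h3))
      (@Continuous.prodMk _ _ _ _ _ (@instTopologicalSpaceProd _ _ t _) _ _ h2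
        (continuous_snd.comp h3))

theorem gfc_dset_prod (I J : Type) [MulAction G I] [MulAction G J] [Finite I] [Finite J]
    (m n : ℕ) : GFC G ((dset G I m).prod (dset G J n)) :=
  gfc_of_homeo (gfc_finset (I × J) (m + n)) (dsetProd I J m n).symm fun _ _ => rfl

theorem gfc_cell_prod [Finite G] {X : GSpace G} (hX : GFC G X) (V : Subgroup G) (n : ℕ) :
    GFC G ((cell G V n).prod X) :=
  gfc_of_homeo (gfc_prod_of (cell G V n) (fun W m => gfc_dset_prod (G ⧸ W) (G ⧸ V) m n) hX)
    (Homeomorph.prodComm X.carrier (cell G V n).carrier) fun _ _ => rfl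

/-- **Products of finite `G`-cell spaces** (diagonal action). -/
theorem gfc_prod [Finite G] {X Y : GSpace G} (hX : GFC G X) (hY : GFC G Y) :
    GFC G (X.prod Y) :=
  gfc_prod_of Y (gfc_cell_prod hY) hX

end Vale.Agent.P241.H32
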