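import Vale.Agent.P241.H486.Fix

/-!
# P241: the functor `X ↦ X^A` to spaces with an action of a subquotient

`SQ G H` : a subgroup `A` of `G` and a function `s : H → G` such that `h • x = s h • x` is an action
of `H` on the `A`-fixed points of every `G`-space. Examples: restriction along a homomorphism
(`A = ⊥`), the action of the Weyl group `N(A) / A` on the `A`-fixed points.

* `sq.obj X : GSpace H` with underlying space `X.fix A`;
* it preserves equivariant maps, homotopies, homotopy equivalences, cofibrations and quotients.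
-/

open CategoryTheory MonoidalCategory OnePoint Topology

namespace Vale.Agent.P241.H32

open Vale.Agent.P251 Vale.Agent.P251.St Vale.Agent.P251.G Vale.Agent.P251.G.LC
open Vale.Agent.P241.St Vale.Agent.P241.H486

/-- A subgroup `A` of `G` and a function `H → G` which defines an action of `H` on the `A`-fixed
points of all `G`-spaces. -/
structure SQ (G H : Type) [Group G] [Group H] where
  /-- the subgroup -/
  A : Subgroup G
  /-- representatives -/
  s : H → G
  norm : ∀ h, ∀ a ∈ A, (s h)⁻¹ * a * s h ∈ A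
  one : s 1 ∈ A
  mul : ∀ h k, (s h * s k)⁻¹ * s (h * k) ∈ A

variable {G H : Type} [Group G] [Group H]

namespace SQ

variable (Q : SQ G H)

theorem smul_eq_of_inv_mul_mem {α : Type} [MulAction G α] {g k : G} (h : g⁻¹ * k ∈ Q.A) {x : α}
    (hx : x ∈ MulAction.fixedPoints Q.A α) : k • x = g • x := by
  have h1 : (g⁻¹ * k) • x = x := hx ⟨_, h⟩
  rw [mul_smul, inv_smul_eq_iff] at h1
  exact h1

theorem smul_mem {α : Type} [MulAction G α] (h : H) {x : α}
    (hx : x ∈ MulAction.fixedPoints Q.A α) : Q.s h • x ∈ MulAction.fixedPoints Q.A α := by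
  rintro ⟨a, ha⟩
  change a • Q.s h • x = Q.s h • x
  have h1 : ((Q.s h)⁻¹ * a * Q.s h) • x = x := hx ⟨_, Q.norm h a ha⟩
  rw [mul_smul, mul_smul, inv_smul_eq_iff] at h1
  exact h1

/-- the action on the fixed points of a `G`-set -/
@[reducible] def act (α : Type) [MulAction G α] : MulAction H (MulAction.fixedPoints Q.A α) where
  smul h x := ⟨Q.s h • x.1, Q.smul_mem h x.2⟩
  one_smul x := Subtype.ext (x.2 ⟨_, Q.one⟩)
  mul_smul h k x := Subtype.ext (by
    change Q.s (h * k) • x.1 = Q.s h • Q.s k • x.1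
    rw [← mul_smul]
    exact Q.smul_eq_of_inv_mul_mem (Q.mul h k) x.2)

/-- the `A`-fixed points with the action of `H` -/
def obj (X : GSpace G) : GSpace H :=
  letI := Q.act X.carrier
  haveI := X.lc_fixedPoints Q.A
  haveI : ContinuousConstSMul H (MulAction.fixedPoints Q.A X.carrier) :=
    ⟨fun h => ((continuous_const_smul (Q.s h)).comp continuous_subtype_val).subtype_mk _⟩
  ⟨MulAction.fixedPoints Q.A X.carrier⟩

theorem und_obj (X : GSpace G) : (Q.obj X).und = X.fix Q.A := rfl

theorem fι_smul (X : GSpace G) (h : H) (x : (Q.obj X).und.Pt) :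
    app (fι X Q.A) ((Q.obj X).smul h x) = X.smul (Q.s h) (app (fι X Q.A) x) := by
  induction x using OnePoint.rec with
  | infty => rfl
  | coe x => rfl

variable {X Y Z : GSpace G}

/-- fixed points of a `G`-map are an `H`-map -/
theorem isGMap_fixHom (f : toLC X.und ⟶ toLC Y.und) (hf : IsGMap (X := X) (Y := Y) (app f)) :
    IsGMap (X := Q.obj X) (Y := Q.obj Y) (app (fixHom Q.A f hf)) := fun h x =>
  injective_fι Y Q.A ((app_fixHom Q.A f hf ((Q.obj X).smul h x)).trans
    ((congrArg (app f) (Q.fι_smul X h x)).trans ((hf _ _).trans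
      ((congrArg (Y.smul (Q.s h)) (app_fixHom Q.A f hf x).symm).trans (Q.fι_smul Y h _).symm))))

/-- fixed points of `G`-homotopic maps -/
theorem gHomotopic {f g : toLC X.und ⟶ toLC Y.und}
    {f' g' : toLC (X.fix Q.A) ⟶ toLC (Y.fix Q.A)}
    (hf : f' ≫ fι Y Q.A = fι X Q.A ≫ f) (hg : g' ≫ fι Y Q.A = fι X Q.A ≫ g)
    (h : GHomotopic (X := X) (Y := Y) (app f) (app g)) :
    GHomotopic (X := Q.obj X) (Y := Q.obj Y) (app f') (app g') := by
  obtain ⟨H, ⟨hH, hG⟩, h0, h1⟩ := h
  let K : toLC X.und ⊗ II ⟶ toLC Y.und := htpyMap H hH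
  have hKH : ∀ (x : (X.fix Q.A).Pt) (t : unitInterval),
      app (fι X Q.A ▷ II ≫ K) (LC.smash x (t : OnePoint unitInterval)) =
        H t (app (fι X Q.A) x) := by
    intro x t
    rw [app_comp, app_whiskerRight_cyl]
    exact app_htpyMap H hH _ t
  have hK : ∀ x, app (fι X Q.A ▷ II ≫ K) x ∈ Set.range (app (fι Y Q.A)) := by
    intro p
    obtain ⟨x, t, rfl⟩ := smash_coe_surjective (X := (X.fix Q.A).carrier) (Y := unitInterval) p
    rw [mem_range_fι]
    intro v hv
    rw [hKH]
    exact (hG t v _).symm.trans (congrArg (H t) (smul_fι X Q.A x hv))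
  let K' := factor (fι Y Q.A) (injective_fι Y Q.A) (fι X Q.A ▷ II ≫ K) hK
  have hK' : ∀ (x : (X.fix Q.A).Pt) (t : unitInterval),
      app (fι Y Q.A) (app K' (LC.smash x (t : OnePoint unitInterval))) =
        H t (app (fι X Q.A) x) := by
    intro x t
    rw [app_factor, hKH]
  refine ⟨fun t x => app K' (LC.smash x (t : OnePoint unitInterval)),
    ⟨isHtpy_of_hom (X := X.fix Q.A) (Y := Y.fix Q.A) K', ?_⟩, ?_, ?_⟩
  · intro t k x
    apply injective_fι Y Q.A
    refine (hK' _ t).trans ?_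
    refine Eq.trans ?_ (Q.fι_smul Y k _).symm
    refine (congrArg (H t) (Q.fι_smul X k x)).trans ?_
    exact (hG t _ _).trans (congrArg _ (hK' x t).symm)
  · funext x
    apply injective_fι Y Q.A
    refine (hK' _ 0).trans ?_
    rw [h0]
    exact (congrArg (fun k => app k x) hf).symm
  · funext x
    apply injective_fι Y Q.A
    refine (hK' _ 1).trans ?_
    rw [h1]
    exact (congrArg (fun k => app k x) hg).symm

/-- fixed points of a `G`-homotopy equivalence -/
theorem gHEquiv (h : GHEquiv X Y) : GHEquiv (Q.obj X) (Q.obj Y) := by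
  obtain ⟨f, g, hf, hg, h1, h2⟩ := h
  have hf : IsGMap (X := X) (Y := Y) (app (toHom f)) := hf
  have hg : IsGMap (X := Y) (Y := X) (app (toHom g)) := hg
  refine ⟨ofHom (X := X.fix Q.A) (Y := Y.fix Q.A) (fixHom Q.A (toHom f) hf),
    ofHom (X := Y.fix Q.A) (Y := X.fix Q.A) (fixHom Q.A (toHom g) hg), Q.isGMap_fixHom _ hf,
    Q.isGMap_fixHom _ hg, ?_, ?_⟩
  · refine Q.gHomotopic (f' := fixHom Q.A (toHom f) hf ≫ fixHom Q.A (toHom g) hg) (g' := 𝟙 _)
      (f := toHom f ≫ toHom g) (g := 𝟙 _) ?_ ?_ h1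
    · rw [Category.assoc, fixHom_fι, fixHom_fι_assoc]
    · rw [Category.comp_id, Category.id_comp]
  · refine Q.gHomotopic (f' := fixHom Q.A (toHom g) hg ≫ fixHom Q.A (toHom f) hf) (g' := 𝟙 _)
      (f := toHom g ≫ toHom f) (g := 𝟙 _) ?_ ?_ h2
    · rw [Category.assoc, fixHom_fι, fixHom_fι_assoc]
    · rw [Category.comp_id, Category.id_comp]

theorem fι_II_smul (B : GSpace G) (h : H) (p : (cylG (Q.obj B) ⟨unitInterval⟩).und.Pt) :
    app (fι B Q.A ▷ II) ((cylG (Q.obj B) ⟨unitInterval⟩).smul h p) =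
      (cylG B ⟨unitInterval⟩).smul (Q.s h) (app (fι B Q.A ▷ II) p) := by
  obtain ⟨x, t, rfl⟩ := smash_coe_surjective (X := (B.fix Q.A).carrier) (Y := unitInterval) p
  refine (congrArg (app (fι B Q.A ▷ II)) (smul_smash (Q.obj B) ⟨unitInterval⟩ h x _)).trans ?_
  refine (app_whiskerRight_cyl (fι B Q.A) _ t).trans ?_
  refine (congrArg (fun b => LC.smash b (t : OnePoint unitInterval)) (Q.fι_smul B h x)).trans ?_
  refine (smul_smash B ⟨unitInterval⟩ (Q.s h) _ _).symm.trans ?_
  exact congrArg _ (app_whiskerRight_cyl (fι B Q.A) x t).symm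

/-- fixed points of a `G`-cofibration -/
theorem gCofib {A B : GSpace G} {i : Map A.und B.und}
    (hG : IsGMap (X := A) (Y := B) (app (toHom i))) (hi : GCofib (A := A) (B := B) i) :
    GCofib (A := Q.obj A) (B := Q.obj B)
      (ofHom (X := A.fix Q.A) (Y := B.fix Q.A) (fixHom Q.A (toHom i) hG)) := by
  obtain ⟨r, hr, hrG⟩ := exists_isRetr_of_gcofib hG hi
  have hinj := injective_of_gcofib hi
  have hrange : ∀ p, app (fι B Q.A ▷ II ≫ r) p ∈ Set.range (app (fι B Q.A ▷ II)) := by
    intro p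
    obtain ⟨x, t, rfl⟩ := smash_coe_surjective (X := (B.fix Q.A).carrier) (Y := unitInterval) p
    rw [app_comp, app_whiskerRight_cyl]
    obtain ⟨b, s, hbs, -⟩ := hr.range (LC.smash (app (fι B Q.A) x) (t : OnePoint unitInterval))
    obtain ⟨y, -, hy⟩ := mem_range_fι_II Q.A b s (by
      intro v hv
      refine (congrArg ((cylG B ⟨unitInterval⟩).smul v) hbs.symm).trans ?_
      refine (hrG v _ t).symm.trans ?_
      rw [smul_fι B Q.A x hv, hbs])
    exact ⟨_, hy.symm.trans hbs.symm⟩
  let ρ : toLC (B.fix Q.A) ⊗ II ⟶ toLC (B.fix Q.A) ⊗ II :=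
    factor (fι B Q.A ▷ II) (injective_fι_II Q.A) (fι B Q.A ▷ II ≫ r) hrange
  have hρ : ∀ (x : (B.fix Q.A).Pt) (t : unitInterval),
      app (fι B Q.A ▷ II) (app ρ (LC.smash x (t : OnePoint unitInterval))) =
        app r (LC.smash (app (fι B Q.A) x) (t : OnePoint unitInterval)) := by
    intro x t
    rw [app_factor, app_comp, app_whiskerRight_cyl]
  have hri : ∀ b : (B.fix Q.A).Pt, app (fι B Q.A) b ∈ Set.range i.toFun →
      b ∈ Set.range (app (fixHom Q.A (toHom i) hG)) := by
    rintro b ⟨a, ha⟩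
    have ha' : a ∈ Set.range (app (fι A Q.A)) := by
      rw [mem_range_fι]
      intro v hv
      apply hinj
      refine (hG v a).trans ?_
      refine (congrArg (B.smul v) ha).trans ?_
      rw [smul_fι B Q.A b hv, ha]
    obtain ⟨x, rfl⟩ := ha'
    refine ⟨x, injective_fι B Q.A ?_⟩
    rw [app_fixHom]
    exact ha
  have hri' : ∀ b ∈ Set.range (app (fixHom Q.A (toHom i) hG)),
      app (fι B Q.A) b ∈ Set.range i.toFun := by
    rintro _ ⟨a, rfl⟩
    exact ⟨app (fι A Q.A) a, (app_fixHom Q.A (toHom i) hG a).symm⟩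
  have hIs : IsRetr (Set.range (app (fixHom Q.A (toHom i) hG))) ρ := by
    refine ⟨?_, ?_, ?_⟩
    · intro b
      apply injective_fι_II Q.A
      rw [hρ, hr.zero, app_whiskerRight_cyl]
    · intro b hb t
      apply injective_fι_II Q.A
      rw [hρ, hr.mem _ (hri' b hb), app_whiskerRight_cyl]
    · intro p
      obtain ⟨x, t, rfl⟩ := smash_coe_surjective (X := (B.fix Q.A).carrier) (Y := unitInterval) p
      obtain ⟨b, s, hbs, hb⟩ := hr.range (LC.smash (app (fι B Q.A) x) (t : OnePoint unitInterval))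
      obtain ⟨y, hy1, hy⟩ := mem_range_fι_II Q.A b s (by
        intro v hv
        refine (congrArg ((cylG B ⟨unitInterval⟩).smul v) hbs.symm).trans ?_
        refine (hrG v _ t).symm.trans ?_
        rw [smul_fι B Q.A x hv, hbs])
      refine ⟨y, s, ?_, hb.imp id fun hb => hri y (hy1.symm ▸ hb)⟩
      apply injective_fι_II Q.A
      rw [hρ, hbs, hy]
  refine gcofib_of_isRetr (A := Q.obj A) (B := Q.obj B) (Q.isGMap_fixHom _ hG) (r := ρ) ?_
    hIs ?_
  · intro a a' h
    apply injective_fι A Q.A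
    apply hinj
    have h1 := congrArg (app (fι B Q.A)) h
    exact (app_fixHom Q.A (toHom i) hG a).symm.trans
      (h1.trans (app_fixHom Q.A (toHom i) hG a'))
  · intro h b t
    apply injective_fι_II Q.A
    refine (hρ _ t).trans ?_
    refine Eq.trans ?_ (Q.fι_II_smul B h _).symm
    refine (congrArg (fun b => app r (LC.smash b (t : OnePoint unitInterval)))
      (Q.fι_smul B h b)).trans ?_
    exact (hrG _ _ t).trans (congrArg _ (hρ b t).symm)

end SQ

end Vale.Agent.P241.H32
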